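import Mathlib

-- ▼ part N337/KMS/Strip
section

/-! # Row 337, S0528 (helper9): functions on the KMS strip and their limits. -/

set_option autoImplicit false

open Filter Topology Set Complex

namespace Crest.Agent.N337.KMS

/-- `F` is a bounded holomorphic function on the strip -/
structure Str (β : ℝ) (F : ℂ → ℂ) : Prop where
  cont : ContinuousOn F {z | 0 ≤ z.im ∧ z.im ≤ β}
  diff : DifferentiableOn ℂ F {z | 0 < z.im ∧ z.im < β}
  bdd : ∃ C : ℝ, ∀ z : ℂ, 0 ≤ z.im → z.im ≤ β → ‖F z‖ ≤ C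

/-- `f`, `g` are the two boundary values of a bounded holomorphic function on the strip -/
def KF (β : ℝ) (f g : ℝ → ℂ) : Prop :=
  ∃ F : ℂ → ℂ, Str β F ∧ (∀ t : ℝ, F t = f t) ∧ ∀ t : ℝ, F (t + β * I) = g t

/-- maximum principle on the strip -/
theorem Str.le {β : ℝ} (hβ : 0 < β) {F : ℂ → ℂ} (h : Str β F) {C : ℝ}
    (h0 : ∀ t : ℝ, ‖F t‖ ≤ C) (h1 : ∀ t : ℝ, ‖F (t + β * I)‖ ≤ C) {z : ℂ} (hz0 : 0 ≤ z.im)
    (hz1 : z.im ≤ β) : ‖F z‖ ≤ C := by
  obtain ⟨D, hD⟩ := h.bdd
  refine PhragmenLindelof.horizontal_strip (a := 0) (b := β) ⟨h.diff, ?_⟩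
    ⟨0, by rw [sub_zero]; positivity, 0, ?_⟩ (fun w hw => ?_) (fun w hw => ?_) hz0 hz1
  · rw [closure_preimage_im, closure_Ioo hβ.ne]
    exact h.cont
  · refine Asymptotics.IsBigO.of_bound D ?_
    refine mem_inf_of_right (mem_principal.2 fun w hw => ?_)
    simpa using hD w hw.1.le hw.2.le
  · have : w = (w.re : ℂ) := by apply Complex.ext <;> simp [hw]
    rw [this]; exact h0 _
  · have : w = (w.re : ℂ) + β * I := by apply Complex.ext <;> simp [hw]
    rw [this]; exact h1 _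

theorem Str.add {β : ℝ} {F G : ℂ → ℂ} (h : Str β F) (h' : Str β G) : Str β fun z => F z + G z := by
  obtain ⟨C, hC⟩ := h.bdd
  obtain ⟨D, hD⟩ := h'.bdd
  exact ⟨h.cont.add h'.cont, h.diff.add h'.diff, C + D, fun z a b =>
    (norm_add_le _ _).trans (add_le_add (hC z a b) (hD z a b))⟩

theorem Str.const_mul {β : ℝ} {F : ℂ → ℂ} (h : Str β F) (c : ℂ) : Str β fun z => c * F z := by
  obtain ⟨C, hC⟩ := h.bdd
  exact ⟨continuousOn_const.mul h.cont, h.diff.const_mul c, ‖c‖ * C, fun z a b => by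
    rw [norm_mul]; exact mul_le_mul_of_nonneg_left (hC z a b) (norm_nonneg _)⟩

theorem KF.add {β : ℝ} {f g f' g' : ℝ → ℂ} (h : KF β f g) (h' : KF β f' g') :
    KF β (fun t => f t + f' t) (fun t => g t + g' t) := by
  obtain ⟨F, h1, h2, h3⟩ := h
  obtain ⟨G, h4, h5, h6⟩ := h'
  exact ⟨fun z => F z + G z, h1.add h4, fun t => by simp only [h2, h5],
    fun t => by simp only [h3, h6]⟩

theorem KF.const_mul {β : ℝ} {f g : ℝ → ℂ} (h : KF β f g) (c : ℂ) :
    KF β (fun t => c * f t) (fun t => c * g t) := by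
  obtain ⟨F, h1, h2, h3⟩ := h
  exact ⟨fun z => c * F z, h1.const_mul c, fun t => by simp only [h2], fun t => by simp only [h3]⟩

theorem KF.sum {β : ℝ} {ι : Type*} (s : Finset ι) {f g : ι → ℝ → ℂ}
    (h : ∀ i ∈ s, KF β (f i) (g i)) :
    KF β (fun t => ∑ i ∈ s, f i t) (fun t => ∑ i ∈ s, g i t) := by
  classical
  induction s using Finset.induction_on with
  | empty =>
    exact ⟨fun _ => 0, ⟨continuousOn_const, differentiableOn_const _, 0, fun _ _ _ => by simp⟩,
      fun _ => by simp, fun _ => by simp⟩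
  | insert a s ha ih =>
    simp only [Finset.sum_insert ha]
    exact (h a (Finset.mem_insert_self _ _)).add
      (ih fun i hi => h i (Finset.mem_insert_of_mem hi))

theorem one_le_norm_add_I {z : ℂ} (hz : 0 ≤ z.im) : 1 ≤ ‖z + I‖ := by
  refine le_trans ?_ (abs_im_le_norm _)
  rw [add_im, I_im]
  exact le_trans (by linarith) (le_abs_self _)

theorem add_I_ne {z : ℂ} (hz : 0 ≤ z.im) : z + I ≠ 0 := by
  have := one_le_norm_add_I hz
  intro h
  rw [h, norm_zero] at this
  linarith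

theorem Str.div {β : ℝ} {F : ℂ → ℂ} (h : Str β F) : Str β fun z => F z / (z + I) := by
  obtain ⟨C, hC⟩ := h.bdd
  refine ⟨h.cont.div (by fun_prop) fun z hz => add_I_ne hz.1,
    h.diff.div (by fun_prop) fun z hz => add_I_ne hz.1.le, C, fun z a b => ?_⟩
  rw [norm_div]
  exact (div_le_self (norm_nonneg _) (one_le_norm_add_I a)).trans (hC z a b)

/-- bounded, locally uniform limits of boundary values are boundary values -/
theorem KF.limit {ι : Type*} {l : Filter ι} [l.NeBot] {β : ℝ} (hβ : 0 < β) {f g : ι → ℝ → ℂ}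
    {f₀ g₀ : ℝ → ℂ} {C : ℝ} (h : ∀ᶠ i in l, KF β (f i) (g i))
    (hC : ∀ᶠ i in l, ∀ t, ‖f i t‖ ≤ C ∧ ‖g i t‖ ≤ C)
    (hu : ∀ ε : ℝ, 0 < ε → ∀ R : ℝ, ∀ᶠ i in l, ∀ t, |t| ≤ R →
      ‖f i t - f₀ t‖ ≤ ε ∧ ‖g i t - g₀ t‖ ≤ ε) : KF β f₀ g₀ := by
  classical
  have hex : ∀ i, ∃ F : ℂ → ℂ, KF β (f i) (g i) →
      Str β F ∧ (∀ t : ℝ, F t = f i t) ∧ ∀ t : ℝ, F (t + β * I) = g i t := fun i => by
    by_cases hi : KF β (f i) (g i)
    · obtain ⟨F, hF⟩ := hi
      exact ⟨F, fun _ => hF⟩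
    · exact ⟨0, fun h' => (hi h').elim⟩
  choose F hF using hex
  have hF' := h.mono fun i hi => hF i hi
  set S : Set ℂ := {z | 0 ≤ z.im ∧ z.im ≤ β} with hS
  have hC0 : 0 ≤ C := by
    obtain ⟨i, hi⟩ := hC.exists
    exact (norm_nonneg _).trans (hi 0).1
  have cau : UniformCauchySeqOn (fun i z => F i z / (z + I)) l S := by
    intro u hu'
    obtain ⟨ε, hε, hεu⟩ := Metric.mem_uniformity_dist.1 hu'
    have hev := (hF'.and hC).and (hu (ε / 4) (by positivity) (4 * C / ε))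
    filter_upwards [hev.prod_mk hev] with p hp z hz
    obtain ⟨⟨⟨⟨a1, a2, a3⟩, a4⟩, a5⟩, ⟨⟨b1, b2, b3⟩, b4⟩, b5⟩ := hp
    refine hεu ?_
    have key : ∀ (t : ℝ) (x y w v : ℂ), 0 ≤ w.im → w.re = t → ‖x‖ ≤ C → ‖y‖ ≤ C →
        (|t| ≤ 4 * C / ε → ‖x - v‖ ≤ ε / 4 ∧ ‖y - v‖ ≤ ε / 4) →
        ‖(x + (-1) * y) / (w + I)‖ ≤ ε / 2 := by
      intro t x y w v hw hwt hx hy hv
      have e : x + (-1) * y = x - y := by ring
      rw [e, norm_div]
      have n1 := one_le_norm_add_I hw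
      rw [div_le_iff₀ (by linarith)]
      by_cases ht : |t| ≤ 4 * C / ε
      · have := norm_sub_le (x - v) (y - v)
        rw [sub_sub_sub_cancel_right] at this
        nlinarith [(hv ht).1, (hv ht).2]
      · have n2 : |t| ≤ ‖w + I‖ := by
          refine le_trans (le_of_eq ?_) (abs_re_le_norm _)
          rw [add_re, I_re, add_zero, hwt]
        rw [not_le, div_lt_iff₀ hε] at ht
        have := norm_sub_le x y
        nlinarith
    have hb := ((a1.add (b1.const_mul (-1))).div).le hβ (C := ε / 2)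
      (fun t => key t _ _ t (f₀ t) (by simp) (by simp) (by rw [a2]; exact (a4 t).1)
        (by rw [b2]; exact (b4 t).1) fun ht => by rw [a2, b2]; exact ⟨(a5 t ht).1, (b5 t ht).1⟩)
      (fun t => key t _ _ (t + β * I) (g₀ t) (by simpa using hβ.le) (by simp)
        (by rw [a3]; exact (a4 t).2) (by rw [b3]; exact (b4 t).2)
        fun ht => by rw [a3, b3]; exact ⟨(a5 t ht).2, (b5 t ht).2⟩) hz.1 hz.2
    rw [dist_eq_norm, ← sub_div]
    have e : F p.1 z - F p.2 z = F p.1 z + (-1) * F p.2 z := by ring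
    rw [e]
    linarith
  have hlim : ∀ z, ∃ a, z ∈ S → Tendsto (fun i => F i z / (z + I)) l (𝓝 a) := fun z => by
    by_cases hz : z ∈ S
    · obtain ⟨a, ha⟩ := CompleteSpace.complete (cau.cauchy_map hz)
      exact ⟨a, fun _ => ha⟩
    · exact ⟨0, fun h' => (hz h').elim⟩
  choose G hG using hlim
  have hU := cau.tendstoUniformlyOn_of_tendsto hG
  have hpt : ∀ z ∈ S, Tendsto (fun i => F i z) l (𝓝 (G z * (z + I))) := fun z hz => by
    refine ((hG z hz).mul_const (z + I)).congr fun i => ?_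
    exact div_mul_cancel₀ _ (add_I_ne hz.1)
  have hptw : ∀ (t : ℝ), Tendsto (fun i => f i t) l (𝓝 (f₀ t)) ∧
      Tendsto (fun i => g i t) l (𝓝 (g₀ t)) := fun t => by
    constructor <;> refine Metric.tendsto_nhds.2 fun ε hε => ?_
    · filter_upwards [hu (ε / 2) (by positivity) |t|] with i hi
      rw [dist_eq_norm]; linarith [(hi t le_rfl).1]
    · filter_upwards [hu (ε / 2) (by positivity) |t|] with i hi
      rw [dist_eq_norm]; linarith [(hi t le_rfl).2]
  refine ⟨fun z => G z * (z + I), ⟨?_, ?_, C, fun z a b => ?_⟩, fun t => ?_, fun t => ?_⟩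
  · exact (hU.continuousOn (hF'.mono fun i hi => hi.1.div.cont).frequently).mul (by fun_prop)
  · refine DifferentiableOn.mul ?_ (by fun_prop)
    refine TendstoLocallyUniformlyOn.differentiableOn
      (hU.mono fun z hz => ⟨hz.1.le, hz.2.le⟩).tendstoLocallyUniformlyOn
      (hF'.mono fun i hi => hi.1.div.diff) ?_
    exact (isOpen_lt continuous_const continuous_im).inter (isOpen_lt continuous_im continuous_const)
  · refine le_of_tendsto (hpt z ⟨a, b⟩).norm ?_
    filter_upwards [hF', hC] with i hi hi'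
    exact hi.1.le hβ (fun t => by rw [hi.2.1]; exact (hi' t).1)
      (fun t => by rw [hi.2.2]; exact (hi' t).2) a b
  · refine tendsto_nhds_unique (hpt t ⟨by simp, by simpa using hβ.le⟩) ?_
    exact (hptw t).1.congr' (hF'.mono fun i hi => (hi.2.1 t).symm)
  · refine tendsto_nhds_unique (hpt (t + β * I) ⟨by simpa using hβ.le, by simp⟩) ?_
    exact (hptw t).2.congr' (hF'.mono fun i hi => (hi.2.2 t).symm)

/-- equi-Lipschitz pointwise convergence is locally uniform -/
theorem unif_of_lip {ι : Type*} {l : Filter ι} [l.NeBot] {f : ι → ℝ → ℂ} {f₀ : ℝ → ℂ} {L : ℝ}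
    (hL0 : 0 ≤ L) (hL : ∀ᶠ i in l, ∀ s t, ‖f i s - f i t‖ ≤ L * |s - t|)
    (hp : ∀ t, Tendsto (fun i => f i t) l (𝓝 (f₀ t))) (ε : ℝ) (hε : 0 < ε) (R : ℝ) :
    ∀ᶠ i in l, ∀ t, |t| ≤ R → ‖f i t - f₀ t‖ ≤ ε := by
  have h0 : ∀ s t, ‖f₀ s - f₀ t‖ ≤ L * |s - t| := fun s t =>
    le_of_tendsto ((hp s).sub (hp t)).norm (hL.mono fun i hi => hi s t)
  obtain ⟨T, -, hT, hc⟩ := finite_cover_balls_of_compact (isCompact_Icc (a := -R) (b := R))
    (show 0 < ε / (3 * (L + 1)) by positivity)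
  have h1 : ∀ᶠ i in l, ∀ c ∈ T, ‖f i c - f₀ c‖ ≤ ε / 3 := by
    refine (eventually_all_finite hT).2 fun c _ => ?_
    filter_upwards [Metric.tendsto_nhds.1 (hp c) (ε / 3) (by positivity)] with i hi
    rw [dist_eq_norm] at hi
    exact hi.le
  filter_upwards [hL, h1] with i hi hi' t ht
  obtain ⟨c, hcT, hc'⟩ := mem_iUnion₂.1 (hc (abs_le.1 ht))
  rw [Metric.mem_ball, Real.dist_eq, lt_div_iff₀ (by positivity)] at hc'
  have a1 := hi t c
  have a2 := h0 c t
  rw [abs_sub_comm] at a2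
  have a3 := hi' c hcT
  have a4 : f i t - f₀ t = (f i t - f i c) + (f i c - f₀ c) + (f₀ c - f₀ t) := by ring
  rw [a4]
  have a5 := norm_add₃_le (a := f i t - f i c) (b := f i c - f₀ c) (c := f₀ c - f₀ t)
  nlinarith [abs_nonneg (t - c)]

end Crest.Agent.N337.KMS
end

-- ▼ part N337/KMS/Dyn

/-! # Row 337, S0528 (helper9): inner dynamics in a C*-algebra and their limits. -/

set_option autoImplicit false

open Filter Topology NormedSpace
open scoped Nat

namespace Crest.Agent.N337.KMS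

variable {𝔄 : Type*} [CStarAlgebra 𝔄]

/-- the inner dynamics at complex time -/
noncomputable def al (H : 𝔄) (z : ℂ) (B : 𝔄) : 𝔄 :=
  exp ((Complex.I * z) • H) * B * exp (-(Complex.I * z) • H)

theorem exp_add_comm {x y : 𝔄} (h : Commute x y) : exp (x + y) = exp x * exp y :=
  exp_add_of_commute_of_mem_ball (𝕂 := ℂ) h
    ((expSeries_radius_eq_top ℂ 𝔄).symm ▸ edist_lt_top _ _)
    ((expSeries_radius_eq_top ℂ 𝔄).symm ▸ edist_lt_top _ _)

theorem exp_smul_add (H : 𝔄) (a b : ℂ) : exp ((a + b) • H) = exp (a • H) * exp (b • H) := by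
  rw [add_smul]
  exact exp_add_comm (((Commute.refl H).smul_left a).smul_right b)

theorem exp_smul_neg (H : 𝔄) (a : ℂ) : exp (a • H) * exp (-a • H) = 1 := by
  rw [← exp_smul_add, add_neg_cancel, zero_smul, exp_zero]

theorem exp_neg_smul (H : 𝔄) (a : ℂ) : exp (-a • H) * exp (a • H) = 1 := by
  rw [← exp_smul_add, neg_add_cancel, zero_smul, exp_zero]

theorem al_zero (H B : 𝔄) : al H 0 B = B := by simp [al]

theorem al_add (H : 𝔄) (z w : ℂ) (B : 𝔄) : al H (z + w) B = al H z (al H w B) := by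
  unfold al
  rw [mul_add, exp_smul_add, neg_add, add_comm (-(Complex.I * z)), exp_smul_add]
  simp only [mul_assoc]

theorem al_sub (H : 𝔄) (z : ℂ) (B C : 𝔄) : al H z (B - C) = al H z B - al H z C := by
  unfold al
  rw [mul_sub, sub_mul]

theorem star_exp_smul {H : 𝔄} (hH : IsSelfAdjoint H) (a : ℂ) :
    star (exp (a • H)) = exp ((starRingEnd ℂ) a • H) := by
  rw [star_exp, star_smul, hH.star_eq]
  rfl

theorem norm_exp_I {H : 𝔄} (hH : IsSelfAdjoint H) (t : ℝ) : ‖exp ((Complex.I * t) • H)‖ ≤ 1 := by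
  have h1 : star (exp ((Complex.I * t) • H)) * exp ((Complex.I * t) • H) = 1 := by
    rw [star_exp_smul hH, ← exp_neg_smul H (Complex.I * t)]
    congr 3
    simp
  have h2 := CStarRing.norm_star_mul_self (x := exp ((Complex.I * t) • H))
  rw [h1] at h2
  have h3 : ‖(1 : 𝔄)‖ ≤ 1 := by
    rcases subsingleton_or_nontrivial 𝔄 with h | h
    · rw [Subsingleton.elim (1 : 𝔄) 0, norm_zero]; exact zero_le_one
    · exact norm_one.le
  nlinarith [norm_nonneg (exp ((Complex.I * t) • H))]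

theorem norm_al {H : 𝔄} (hH : IsSelfAdjoint H) (t : ℝ) (B : 𝔄) : ‖al H t B‖ ≤ ‖B‖ := by
  have h1 := norm_exp_I hH t
  have h2 := norm_exp_I hH (-t)
  have e : Complex.I * ((-t : ℝ) : ℂ) = -(Complex.I * t) := by push_cast; ring
  rw [e] at h2
  unfold al
  refine (norm_mul_le _ _).trans ?_
  have h3 := norm_mul_le (exp ((Complex.I * t) • H)) B
  have h4 := norm_nonneg B
  have h5 := norm_nonneg (exp ((Complex.I * t) • H) * B)
  nlinarith

theorem hasDerivAt_al (H B : 𝔄) (z : ℂ) :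
    HasDerivAt (fun z => al H z B) (al H z (Complex.I • (H * B - B * H))) z := by
  have h1 : HasDerivAt (fun z : ℂ => exp ((Complex.I * z) • H))
      (Complex.I • (exp ((Complex.I * z) • H) * H)) z := by
    have := (hasDerivAt_exp_smul_const H (Complex.I * z)).scomp z
      ((hasDerivAt_id z).const_mul Complex.I)
    simpa [Function.comp_def] using this
  have h2 : HasDerivAt (fun z : ℂ => exp (-(Complex.I * z) • H))
      ((-Complex.I) • (H * exp (-(Complex.I * z) • H))) z := by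
    have := (hasDerivAt_exp_smul_const' H (-(Complex.I * z))).scomp z
      ((hasDerivAt_id z).const_mul Complex.I).neg
    simpa [Function.comp_def] using this
  have h3 := (h1.mul_const B).fun_mul h2
  unfold al
  refine h3.congr_deriv ?_
  generalize exp ((Complex.I * z) • H) = X
  generalize exp (-(Complex.I * z) • H) = Y
  simp only [mul_smul_comm, smul_mul_assoc, mul_assoc, neg_smul,
    mul_neg, sub_eq_add_neg, mul_add, add_mul, smul_add, neg_mul, smul_neg]

theorem norm_al_sub {H : 𝔄} (hH : IsSelfAdjoint H) (B : 𝔄) (s t : ℝ) :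
    ‖al H s B - al H t B‖ ≤ ‖H * B - B * H‖ * |s - t| := by
  have := Convex.norm_image_sub_le_of_norm_hasDerivWithin_le (𝕜 := ℝ) (s := Set.univ)
    (f := fun t : ℝ => al H t B) (f' := fun t : ℝ => al H t (Complex.I • (H * B - B * H)))
    (C := ‖H * B - B * H‖) (x := t) (y := s)
    (fun x _ => by
      have := (hasDerivAt_al H B x).scomp x (Complex.ofRealCLM.hasDerivAt (x := x))
      simpa [Function.comp_def] using this)
    (fun x _ => (norm_al hH x _).trans (by rw [norm_smul]; simp)) convex_univ trivial trivial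
  simpa using this

/-- finite-volume KMS function -/
theorem kf_al {H : 𝔄} (hH : IsSelfAdjoint H) (ω : 𝔄 →L[ℂ] ℂ) (β : ℝ) (A B : 𝔄)
    (h : ∀ t : ℝ, ω (A * al H (β * Complex.I) (al H t B)) = ω (al H t B * A)) :
    KF β (fun t => ω (A * al H t B)) (fun t => ω (al H t B * A)) := by
  have hd : Differentiable ℂ fun z => al H z B := fun z => (hasDerivAt_al H B z).differentiableAt
  have hd' : Differentiable ℂ fun z => ω (A * al H z B) :=
    ω.differentiable.comp (hd.const_mul A)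
  obtain ⟨D, hD⟩ := (isCompact_Icc (a := (0 : ℝ)) (b := β)).exists_bound_of_continuousOn
    (f := fun s : ℝ => al H (s * Complex.I) B)
    ((hd.continuous.comp (by fun_prop)).continuousOn)
  refine ⟨fun z => ω (A * al H z B), ⟨hd'.continuous.continuousOn, hd'.differentiableOn,
    ‖ω‖ * (‖A‖ * D), fun z a b => ?_⟩, fun _ => rfl, fun t => ?_⟩
  · refine (ω.le_opNorm _).trans (mul_le_mul_of_nonneg_left ?_ (norm_nonneg _))
    refine (norm_mul_le _ _).trans (mul_le_mul_of_nonneg_left ?_ (norm_nonneg _))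
    rw [← Complex.re_add_im z, al_add]
    exact (norm_al hH _ _).trans (hD _ ⟨a, b⟩)
  · simp only
    rw [add_comm, al_add, h]

/-- the commutator as an operator -/
noncomputable def ad (H : 𝔄) : 𝔄 →L[ℂ] 𝔄 :=
  ContinuousLinearMap.mul ℂ 𝔄 H - (ContinuousLinearMap.mul ℂ 𝔄).flip H

theorem ad_apply (H B : 𝔄) : ad H B = H * B - B * H := rfl

theorem hasSum_al (H : 𝔄) (z : ℂ) (B : 𝔄) :
    HasSum (fun k : ℕ => ((k !⁻¹ : ℂ) * (Complex.I * z) ^ k) • (ad H ^ k) B) (al H z B) := by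
  set L : 𝔄 →L[ℂ] 𝔄 := ContinuousLinearMap.mul ℂ 𝔄 ((Complex.I * z) • H) with hL
  set R : 𝔄 →L[ℂ] 𝔄 := (ContinuousLinearMap.mul ℂ 𝔄).flip (-(Complex.I * z) • H) with hR
  have ev : ∀ (T : 𝔄 →L[ℂ] 𝔄) (C : 𝔄),
      HasSum (fun k : ℕ => (k !⁻¹ : ℂ) • (T ^ k) C) (exp T C) := fun T C => by
    have h0 := exp_series_hasSum_exp' (𝕂 := ℂ) T
    have h1 := (ContinuousLinearMap.apply ℂ 𝔄 C).hasSum h0
    simpa only [ContinuousLinearMap.apply_apply, smul_apply] using h1
  have h1 : ∀ C, exp L C = exp ((Complex.I * z) • H) * C := fun C => by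
    refine (ev L C).unique ?_
    have e : ∀ k : ℕ, (L ^ k) C = ((Complex.I * z) • H) ^ k * C := fun k => by
      induction k with
      | zero => simp
      | succ k ih => rw [pow_succ', pow_succ', mul_apply_eq_comp, ih, mul_assoc]; rfl
    simp only [e, ← smul_mul_assoc]
    exact (exp_series_hasSum_exp' (𝕂 := ℂ) _).mul_right C
  have h2 : ∀ C, exp R C = C * exp (-(Complex.I * z) • H) := fun C => by
    refine (ev R C).unique ?_
    have e : ∀ k : ℕ, (R ^ k) C = C * (-(Complex.I * z) • H) ^ k := fun k => by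
      induction k with
      | zero => simp
      | succ k ih => rw [pow_succ', pow_succ, mul_apply_eq_comp, ih, ← mul_assoc]; rfl
    simp only [e, ← mul_smul_comm]
    exact (exp_series_hasSum_exp' (𝕂 := ℂ) _).mul_left C
  have hc : Commute L R := by
    ext C
    simp [hL, hR, mul_assoc]
  have h3 : exp (L + R) = exp L * exp R :=
    exp_add_of_commute_of_mem_ball (𝕂 := ℂ) hc
      ((expSeries_radius_eq_top ℂ (𝔄 →L[ℂ] 𝔄)).symm ▸ edist_lt_top _ _)
      ((expSeries_radius_eq_top ℂ (𝔄 →L[ℂ] 𝔄)).symm ▸ edist_lt_top _ _)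
  have h4 : L + R = (Complex.I * z) • ad H := by
    ext C
    simp [hL, hR, ad_apply, sub_eq_add_neg]
  have h5 := ev (L + R) B
  rw [h3, mul_apply_eq_comp, h1, h2, h4, ← mul_assoc] at h5
  have e : ∀ k : ℕ, (((Complex.I * z) • ad H) ^ k) B = (Complex.I * z) ^ k • (ad H ^ k) B := by
    intro k
    induction k with
    | zero => simp
    | succ k ih =>
      rw [pow_succ', pow_succ', pow_succ', mul_apply_eq_comp, mul_apply_eq_comp, ih, smul_apply,
        map_smul, smul_smul]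
  simpa only [e, smul_smul, al] using h5

section limit

variable {ι : Type*} {l : Filter ι} {G : ι → Prop}

/-- `D i` behaves like a fixed finite sum of elements of `P` of total norm `r`, with bounded
convergent coefficients -/
def Dec (l : Filter ι) (G : ι → Prop) (P : 𝔄 → Prop) (r : ℝ) (D : ι → 𝔄) : Prop :=
  ∀ T : ι → 𝔄 →L[ℂ] 𝔄,
    (∀ a : ℝ, 0 ≤ a → ∀ i, G i → (∀ B, P B → ‖T i B‖ ≤ a * ‖B‖) → ‖T i (D i)‖ ≤ a * r) ∧
    ((∀ B, P B → ∃ L, Tendsto (fun i => T i B) l (𝓝 L)) →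
      ∃ L, Tendsto (fun i => T i (D i)) l (𝓝 L))

variable {P : 𝔄 → Prop}

theorem Dec.single {B : 𝔄} (hB : P B) {c : ι → ℂ} (hc : ∀ i, G i → ‖c i‖ ≤ 1) {c₀ : ℂ}
    (hc' : Tendsto c l (𝓝 c₀)) : Dec l G P ‖B‖ fun i => c i • B := by
  refine fun T => ⟨fun a ha i hi h => ?_, fun h => ?_⟩
  · rw [map_smul, norm_smul]
    exact (mul_le_of_le_one_left (norm_nonneg _) (hc i hi)).trans (h B hB)
  · obtain ⟨L, hL⟩ := h B hB
    exact ⟨c₀ • L, by simpa only [map_smul] using hc'.smul hL⟩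

theorem Dec.add {r r' : ℝ} {D D' : ι → 𝔄} (h : Dec l G P r D) (h' : Dec l G P r' D') :
    Dec l G P (r + r') fun i => D i + D' i := by
  refine fun T => ⟨fun a ha i hi hh => ?_, fun hh => ?_⟩
  · rw [map_add, mul_add]
    exact (norm_add_le _ _).trans (add_le_add ((h T).1 a ha i hi hh) ((h' T).1 a ha i hi hh))
  · obtain ⟨L, hL⟩ := (h T).2 hh
    obtain ⟨L', hL'⟩ := (h' T).2 hh
    exact ⟨L + L', by simpa only [map_add] using hL.add hL'⟩

theorem Dec.mono {r r' : ℝ} {D : ι → 𝔄} (h : Dec l G P r D) (hr : r ≤ r') : Dec l G P r' D :=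
  fun T => ⟨fun a ha i hi hh => ((h T).1 a ha i hi hh).trans (mul_le_mul_of_nonneg_left hr ha),
    (h T).2⟩

theorem Dec.sum {J : Type*} (s : Finset J) {r : ℝ} {D : J → ι → 𝔄}
    (h : ∀ j ∈ s, Dec l G P r (D j)) : Dec l G P (s.card * r) fun i => ∑ j ∈ s, D j i := by
  classical
  induction s using Finset.induction_on with
  | empty => exact fun T => ⟨fun a ha i hi hh => by simp, fun _ => ⟨0, by simpa using tendsto_const_nhds⟩⟩
  | insert a s ha ih =>
    simp only [Finset.sum_insert ha, Finset.card_insert_of_notMem ha]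
    refine ((h a (Finset.mem_insert_self _ _)).add
      (ih fun i hi => h i (Finset.mem_insert_of_mem hi))).mono (le_of_eq ?_)
    push_cast
    ring

theorem exists_tendsto_of_approx [l.NeBot] {f : ι → 𝔄}
    (h : ∀ ε : ℝ, 0 < ε → ∃ (g : ι → 𝔄) (L : 𝔄), Tendsto g l (𝓝 L) ∧ ∀ i, ‖f i - g i‖ ≤ ε) :
    ∃ L, Tendsto f l (𝓝 L) := by
  refine cauchy_map_iff_exists_tendsto.1 (Metric.cauchy_iff.2 ⟨inferInstance, fun ε hε => ?_⟩)
  obtain ⟨g, L, h1, h2⟩ := h (ε / 4) (by positivity)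
  refine ⟨Metric.ball L (ε / 2), ?_, fun x hx y hy => ?_⟩
  · rw [mem_map]
    filter_upwards [Metric.tendsto_nhds.1 h1 (ε / 4) (by positivity)] with i hi
    have := dist_triangle (f i) (g i) L
    rw [dist_eq_norm (f i) (g i)] at this
    rw [Set.mem_preimage, Metric.mem_ball]
    linarith [h2 i]
  · have := dist_triangle_right x y L
    rw [Metric.mem_ball] at hx hy
    linarith

/-- a family of local Hamiltonians -/
structure LocSys (l : Filter ι) (G : ι → Prop) (H : ι → 𝔄) (Loc : ℕ → 𝔄 → Prop) (K : ℝ) :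
    Prop where
  K0 : 0 < K
  ev : ∀ᶠ i in l, G i
  sa : ∀ i, IsSelfAdjoint (H i)
  step : ∀ m B, Loc m B → Dec l G (Loc (m + 1)) (K * m * ‖B‖) fun i => H i * B - B * H i
  dense : ∀ B (ε : ℝ), 0 < ε → ∃ m B', Loc m B' ∧ ‖B - B'‖ ≤ ε

variable {H : ι → 𝔄} {Loc : ℕ → 𝔄 → Prop} {K : ℝ}

theorem LocSys.pow_le (h : LocSys l G H Loc K) {i : ι} (hi : G i) (k : ℕ) :
    ∀ m B, Loc m B → ‖(ad (H i) ^ k) B‖ ≤ K ^ k * m.ascFactorial k * ‖B‖ := by
  induction k with
  | zero => intro m B _; simp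
  | succ k ih =>
    intro m B hB
    have hK := h.K0
    have := ((h.step m B hB) fun i => ad (H i) ^ k).1 (K ^ k * (m + 1).ascFactorial k)
      (by positivity) i hi (ih (m + 1))
    rw [pow_succ, mul_apply_eq_comp, ad_apply]
    refine this.trans (le_of_eq ?_)
    have e : ((m.ascFactorial (k + 1) : ℕ) : ℝ) = m * ((m + 1).ascFactorial k : ℕ) := by
      rw [Nat.ascFactorial_succ, ← Nat.succ_ascFactorial]
      push_cast
      rfl
    rw [e]
    ring

theorem LocSys.comm_le (h : LocSys l G H Loc K) {i : ι} (hi : G i) {m : ℕ} {B : 𝔄}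
    (hB : Loc m B) : ‖H i * B - B * H i‖ ≤ K * m * ‖B‖ := by
  simpa [ad_apply, Nat.ascFactorial] using h.pow_le hi 1 m B hB

theorem LocSys.pow_conv (h : LocSys l G H Loc K) (k : ℕ) :
    ∀ m B, Loc m B → ∃ L, Tendsto (fun i => (ad (H i) ^ k) B) l (𝓝 L) := by
  induction k with
  | zero => intro m B _; exact ⟨B, by simpa using tendsto_const_nhds⟩
  | succ k ih =>
    intro m B hB
    exact ((h.step m B hB) fun i => ad (H i) ^ k).2 (ih (m + 1))

theorem LocSys.conv_small [l.NeBot] (h : LocSys l G H Loc K) {t : ℝ} (ht : |t| ≤ 1 / (4 * K))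
    (B : 𝔄) : ∃ L, Tendsto (fun i => al (H i) t B) l (𝓝 L) := by
  have hK := h.K0
  refine exists_tendsto_of_approx fun ε hε => ?_
  obtain ⟨m, B', hB', hε'⟩ := h.dense B ε hε
  choose L hL using fun k => h.pow_conv k m B' hB'
  refine ⟨fun i => al (H i) t B', ∑' k, ((k !⁻¹ : ℂ) * (Complex.I * t) ^ k) • L k, ?_,
    fun i => ?_⟩
  · have := tendsto_tsum_of_dominated_convergence (𝓕 := l)
      (f := fun i k => ((k !⁻¹ : ℂ) * (Complex.I * t) ^ k) • (ad (H i) ^ k) B')
      (g := fun k => ((k !⁻¹ : ℂ) * (Complex.I * t) ^ k) • L k)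
      (bound := fun k => 2 ^ m * ‖B'‖ * (1 / 2) ^ k)
      (summable_geometric_two.mul_left _) (fun k => (hL k).const_smul _) ?_
    · exact this.congr fun i => (hasSum_al _ _ _).tsum_eq
    filter_upwards [h.ev] with i hi k
    have a1 := h.pow_le hi k m B' hB'
    have a2 : ((m.ascFactorial k : ℕ) : ℝ) ≤ k ! * (2 ^ m * 2 ^ k) := by
      rw [Nat.ascFactorial_eq_factorial_mul_choose']
      have := (Nat.choose_le_two_pow (m + k - 1) k).trans
        (Nat.pow_le_pow_right (by norm_num) (show m + k - 1 ≤ m + k by omega))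
      rw [pow_add] at this
      exact_mod_cast Nat.mul_le_mul_left _ this
    have a3 : ‖((k !⁻¹ : ℂ) * (Complex.I * t) ^ k)‖ = (k ! : ℝ)⁻¹ * |t| ^ k := by simp
    have a4 : (0 : ℝ) < k ! := by exact_mod_cast k.factorial_pos
    have a5 : (|t| * K * 2) ^ k ≤ (1 / 2) ^ k := by
      refine pow_le_pow_left₀ (by positivity) ?_ k
      rw [le_div_iff₀ (by positivity)] at ht
      linarith
    rw [norm_smul, a3]
    calc (k ! : ℝ)⁻¹ * |t| ^ k * ‖(ad (H i) ^ k) B'‖
        ≤ (k ! : ℝ)⁻¹ * |t| ^ k * (K ^ k * (k ! * (2 ^ m * 2 ^ k)) * ‖B'‖) := by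
          gcongr
          exact a1.trans (by gcongr)
      _ = 2 ^ m * ‖B'‖ * (|t| * K * 2) ^ k := by
          rw [mul_pow, mul_pow]
          field_simp
      _ ≤ _ := by gcongr
  · rw [← al_sub]
    exact (norm_al (h.sa i) t _).trans hε'

/-- **convergence of the dynamics** -/
theorem LocSys.conv [l.NeBot] (h : LocSys l G H Loc K) (t : ℝ) (B : 𝔄) :
    ∃ L, Tendsto (fun i => al (H i) t B) l (𝓝 L) := by
  have hK := h.K0
  obtain ⟨N, hN⟩ := exists_nat_ge (|t| * (4 * K))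
  have key : ∀ (k : ℕ) (s : ℝ), |s| ≤ 1 / (4 * K) → ∀ B,
      ∃ L, Tendsto (fun i => al (H i) ((k * s : ℝ) : ℂ) B) l (𝓝 L) := by
    intro k s hs
    induction k with
    | zero => intro B; exact ⟨B, by simp [al_zero]⟩
    | succ k ih =>
      intro B
      obtain ⟨L₁, h1⟩ := ih B
      obtain ⟨L₂, h2⟩ := h.conv_small hs L₁
      refine ⟨L₂, ?_⟩
      have e : (((((k + 1 : ℕ) : ℝ) * s : ℝ)) : ℂ) = (s : ℂ) + ((k * s : ℝ) : ℂ) := by
        push_cast; ring
      simp only [e, al_add]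
      refine h2.congr_dist ?_
      refine squeeze_zero (fun _ => dist_nonneg) (fun i => ?_) (tendsto_iff_norm_sub_tendsto_zero.1 h1)
      rw [dist_comm, dist_eq_norm, ← al_sub]
      exact norm_al (h.sa i) s _
  have := key (N + 1) (t / ((N + 1 : ℕ) : ℝ)) (by
    rw [abs_div, Nat.abs_cast, div_le_div_iff₀ (by positivity) (by positivity)]
    push_cast
    linarith) B
  rwa [mul_div_cancel₀ _ (by positivity)] at this

end limit

end Crest.Agent.N337.KMS
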